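import Vale.Agent.P154q3.TMQSound
import Vale.Agent.P154q3.C.Ipp.F0
import Vale.Agent.P154q3.C.Ipp.F1
import Vale.Agent.P154q3.C.Ipp.F2
import Vale.Agent.P154q3.C.Ipp.F3
import Vale.Agent.P154q3.C.Ipp.F4
import Vale.Agent.P154q3.C.Ipp.F5
import Vale.Agent.P154q3.C.Ipp.F6
import Vale.Agent.P154q3.C.Ipp.F7
import Vale.Agent.P154q3.C.Ipp.F8
import Vale.Agent.P154q3.C.Ipp.F9
import Vale.Agent.P154q3.C.Ipp.F10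
import Vale.Agent.P154q3.C.Ipp.F11
import Vale.Agent.P154q3.C.Ipp.F12
import Vale.Agent.P154q3.C.Ipp.F13
import Vale.Agent.P154q3.C.Ipp.F14
import Vale.Agent.P154q3.C.Ipp.F15
import Vale.Agent.P154q3.C.Ipp.F16
import Vale.Agent.P154q3.C.Ipp.F17
import Vale.Agent.P154q3.C.Ipp.F18
import Vale.Agent.P154q3.C.Ipp.F19
import Vale.Agent.P154q3.C.Ipp.F20
import Vale.Agent.P154q3.C.Ipp.F21
import Vale.Agent.P154q3.C.Ipp.F22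

namespace Vale.Agent.P154q3.C

open Vale.Agent.P154q4.TMC Vale.Agent.P154q4.TMS Vale.Agent.P154q3.TMQ Vale.Agent.P154q3.TMQS Ipp

set_option maxRecDepth 1000000 in
theorem covIpp : Cov3 DIpp ⟨0, 33554432, 0, 16777216, 0, 0⟩ ⟨0, 33554432, 0, 16777216, 0, 0⟩ :=
  (Cov3_zs _ 0 16777216 _ _ (Cov3_zt _ 11863284 _ _ (by decide +kernel) (Cov3_zs _ 0 8388608 _ _ (Cov3_zt _ 8388609 _ _ (by decide +kernel) (Cov3_ys _ 0 16777216 _ _ (Cov3_yt _ 11863284 _ _ (by decide +kernel) (Cov3_zs _ 1 4194304 _ _ (chkRoot3_sound _ _ _ _ c0) (Cov3_ys _ 1 5931642 _ _ (chkRoot3_sound _ _ _ _ c1) (chkRoot3_sound _ _ _ _ c2)))) (Cov3_zs _ 0 4194304 _ _ (Cov3_zt _ 5931642 _ _ (by decide +kernel) (Cov3_ys _ 1 8388608 _ _ (chkRoot3_sound _ _ _ _ c3) (Cov3_zs _ 0 2097152 _ _ (chkRoot3_sound _ _ _ _ c4) (Cov3_ys _ 0 25165824 _ _ (chkRoot3_sound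 _ _ _ _ c5) (chkRoot3_sound _ _ _ _ c6))))) (Cov3_ys _ 1 8388608 _ _ (chkRoot3_sound _ _ _ _ c7) (Cov3_zs _ 1 4194304 _ _ (Cov3_zs _ 0 6291456 _ _ (Cov3_ys _ 0 25165824 _ _ (chkRoot3_sound _ _ _ _ c8) (Cov3_zs _ 0 5242880 _ _ (chkRoot3_sound _ _ _ _ c9) (chkRoot3_sound _ _ _ _ c10))) (Cov3_ys _ 0 25165824 _ _ (chkRoot3_sound _ _ _ _ c11) (Cov3_zs _ 0 7340032 _ _ (chkRoot3_sound _ _ _ _ c12) (chkRoot3_sound _ _ _ _ c13)))) (Cov3_zs _ 1 6291456 _ _ (Cov3_ys _ 0 25165824 _ _ (chkRoot3_sound _ _ _ _ c14) (Cov3_zs _ 0 6291456 _ _ (chkRoot3_sound _ _ _ _ c15) (Cov3_ys _ 1 12582912 _ _ (chkRoot3_sound _ _ _ _ c16) (Cov3_zs _ 1 5242880 _ _ (chkRoot3_sound _ _ _ _ c17) (chkRoot3_sound _ _ _ _ c18))))) (Cov3_ys _ 0 25165824 _ _ (chkRoot3_sound _ _ _ _ c19) (Cov3_zs _ 0 6291456 _ _ (chkRoot3_sound _ _ _ _ c20)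 (chkRoot3_sound _ _ _ _ c21))))))))) (Cov3_ys _ 0 16777216 _ _ (Cov3_yt _ 11863284 _ _ (by decide +kernel) (Cov3_zs _ 1 5931642 _ _ (Cov3_ys _ 1 5931642 _ _ (chkRoot3_sound _ _ _ _ c22) (Cov3_ys _ 0 8388608 _ _ (chkRoot3_sound _ _ _ _ c23) (Cov3_zs _ 1 2965821 _ _ (chkRoot3_sound _ _ _ _ c24) (chkRoot3_sound _ _ _ _ c25)))) (Cov3_ys _ 1 5931642 _ _ (chkRoot3_sound _ _ _ _ c26) (Cov3_zs _ 1 8897463 _ _ (Cov3_ys _ 0 8388608 _ _ (chkRoot3_sound _ _ _ _ c27) (Cov3_zs _ 0 12582912 _ _ (chkRoot3_sound _ _ _ _ c28) (chkRoot3_sound _ _ _ _ c29))) (Cov3_ys _ 0 8388608 _ _ (chkRoot3_sound _ _ _ _ c30) (Cov3_zs _ 0 12582912 _ _ (chkRoot3_sound _ _ _ _ c31) (Cov3_zs _ 1 10380373 _ _ (chkRoot3_sound _ _ _ _ c32) (chkRoot3_sound _ _ _ _ c33)))))))) (Cov3_zs _ 1 5931642 _ _ (Cov3_zs _ 0 12582912 _ _ (Cov3_ys _ 0 25165824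 _ _ (Cov3_yt _ 14529496 _ _ (by decide +kernel) (Cov3_zs _ 1 2965821 _ _ (chkRoot3_sound _ _ _ _ c34) (Cov3_ys _ 0 20971520 _ _ (chkRoot3_sound _ _ _ _ c35) (chkRoot3_sound _ _ _ _ c36)))) (Cov3_zs _ 0 10485760 _ _ (Cov3_ys _ 1 8388608 _ _ (chkRoot3_sound _ _ _ _ c37) (Cov3_zs _ 1 2965821 _ _ (chkRoot3_sound _ _ _ _ c38) (Cov3_ys _ 1 12582912 _ _ (chkRoot3_sound _ _ _ _ c39) (Cov3_zs _ 1 4448731 _ _ (chkRoot3_sound _ _ _ _ c40) (chkRoot3_sound _ _ _ _ c41))))) (Cov3_ys _ 1 8388608 _ _ (chkRoot3_sound _ _ _ _ c42) (Cov3_zs _ 1 2965821 _ _ (Cov3_ys _ 1 12582912 _ _ (chkRoot3_sound _ _ _ _ c43) (Cov3_zs _ 1 1482910 _ _ (chkRoot3_sound _ _ _ _ c44) (chkRoot3_sound _ _ _ _ c45))) (Cov3_ys _ 0 29360128 _ _ (chkRoot3_sound _ _ _ _ c46) (chkRoot3_sound _ _ _ _ c47)))))) (Cov3_ys _ 1 8388608 _ _ (chkRoot3_sound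 _ _ _ _ c48) (Cov3_ys _ 1 12582912 _ _ (chkRoot3_sound _ _ _ _ c49) (Cov3_zs _ 1 2965821 _ _ (chkRoot3_sound _ _ _ _ c50) (Cov3_ys _ 0 25165824 _ _ (chkRoot3_sound _ _ _ _ c51) (Cov3_zs _ 0 14680064 _ _ (Cov3_zs _ 1 4448731 _ _ (chkRoot3_sound _ _ _ _ c52) (Cov3_ys _ 1 14680064 _ _ (chkRoot3_sound _ _ _ _ c53) (chkRoot3_sound _ _ _ _ c54))) (chkRoot3_sound _ _ _ _ c55))))))) (Cov3_zs _ 0 12582912 _ _ (Cov3_zt _ 10273905 _ _ (by decide +kernel) (Cov3_ys _ 1 8388608 _ _ (chkRoot3_sound _ _ _ _ c56) (Cov3_ys _ 0 25165824 _ _ (Cov3_yt _ 14529496 _ _ (by decide +kernel) (Cov3_zs _ 1 8102773 _ _ (Cov3_zs _ 0 10485760 _ _ (chkRoot3_sound _ _ _ _ c57) (chkRoot3_sound _ _ _ _ c58)) (chkRoot3_sound _ _ _ _ c59))) (Cov3_zs _ 0 10485760 _ _ (Cov3_zt _ 9378749 _ _ (by decide +kernel) (Cov3_ys _ 1 12582912 _ _ (chkRoot3_sound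 _ _ _ _ c60) (Cov3_zs _ 1 7655195 _ _ (Cov3_zs _ 0 9437184 _ _ (chkRoot3_sound _ _ _ _ c61) (chkRoot3_sound _ _ _ _ c62)) (chkRoot3_sound _ _ _ _ c63)))) (Cov3_zs _ 1 8102773 _ _ (Cov3_ys _ 1 12582912 _ _ (chkRoot3_sound _ _ _ _ c64) (Cov3_zs _ 0 11534336 _ _ (chkRoot3_sound _ _ _ _ c65) (chkRoot3_sound _ _ _ _ c66))) (Cov3_ys _ 1 12582912 _ _ (chkRoot3_sound _ _ _ _ c67) (Cov3_zs _ 1 9188339 _ _ (chkRoot3_sound _ _ _ _ c68) (chkRoot3_sound _ _ _ _ c69)))))))) (Cov3_ys _ 0 25165824 _ _ (Cov3_yt _ 14529496 _ _ (by decide +kernel) (Cov3_zs _ 1 8897463 _ _ (Cov3_ys _ 1 7264748 _ _ (chkRoot3_sound _ _ _ _ c70) (Cov3_zs _ 0 14680064 _ _ (Cov3_ys _ 1 10897122 _ _ (chkRoot3_sound _ _ _ _ c71) (chkRoot3_sound _ _ _ _ c72)) (Cov3_ys _ 1 10897122 _ _ (chkRoot3_sound _ _ _ _ c73) (chkRoot3_sound _ _ _ _ c74))))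 (Cov3_ys _ 1 7264748 _ _ (chkRoot3_sound _ _ _ _ c75) (Cov3_zs _ 0 14680064 _ _ (Cov3_zt _ 11097086 _ _ (by decide +kernel) (Cov3_ys _ 1 10897122 _ _ (chkRoot3_sound _ _ _ _ c76) (chkRoot3_sound _ _ _ _ c77))) (Cov3_ys _ 1 10897122 _ _ (chkRoot3_sound _ _ _ _ c78) (Cov3_ys _ 0 20971520 _ _ (chkRoot3_sound _ _ _ _ c79) (Cov3_zs _ 1 10380373 _ _ (chkRoot3_sound _ _ _ _ c80) (chkRoot3_sound _ _ _ _ c81)))))))) (Cov3_zs _ 1 8897463 _ _ (Cov3_ys _ 1 8388608 _ _ (chkRoot3_sound _ _ _ _ c82) (Cov3_zs _ 0 14680064 _ _ (Cov3_ys _ 0 29360128 _ _ (Cov3_yt _ 15693649 _ _ (by decide +kernel) (Cov3_zs _ 1 7414552 _ _ (chkRoot3_sound _ _ _ _ c83) (chkRoot3_sound _ _ _ _ c84))) (Cov3_zs _ 1 7414552 _ _ (chkRoot3_sound _ _ _ _ c85) (chkRoot3_sound _ _ _ _ c86))) (Cov3_ys _ 1 12582912 _ _ (chkRoot3_sound _ _ _ _ c87)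 (Cov3_zs _ 1 7414552 _ _ (chkRoot3_sound _ _ _ _ c88) (Cov3_ys _ 1 14680064 _ _ (chkRoot3_sound _ _ _ _ c89) (Cov3_ys _ 0 29360128 _ _ (chkRoot3_sound _ _ _ _ c90) (Cov3_zs _ 0 15728640 _ _ (chkRoot3_sound _ _ _ _ c91) (chkRoot3_sound _ _ _ _ c92)))))))) (Cov3_ys _ 1 8388608 _ _ (chkRoot3_sound _ _ _ _ c93) (Cov3_zs _ 0 14680064 _ _ (Cov3_zt _ 11097086 _ _ (by decide +kernel) (Cov3_ys _ 1 12582912 _ _ (chkRoot3_sound _ _ _ _ c94) (Cov3_zs _ 1 9997274 _ _ (Cov3_ys _ 0 29360128 _ _ (chkRoot3_sound _ _ _ _ c95) (chkRoot3_sound _ _ _ _ c96)) (chkRoot3_sound _ _ _ _ c97)))) (Cov3_ys _ 1 12582912 _ _ (chkRoot3_sound _ _ _ _ c98) (Cov3_zs _ 1 10380373 _ _ (Cov3_ys _ 0 29360128 _ _ (Cov3_yt _ 15693649 _ _ (by decide +kernel) (Cov3_zs _ 0 15728640 _ _ (chkRoot3_sound _ _ _ _ c99) (chkRoot3_sound _ _ _ _ c100)))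 (Cov3_zs _ 0 15728640 _ _ (chkRoot3_sound _ _ _ _ c101) (chkRoot3_sound _ _ _ _ c102))) (Cov3_ys _ 0 29360128 _ _ (Cov3_yt _ 15693649 _ _ (by decide +kernel) (Cov3_zs _ 1 11121828 _ _ (chkRoot3_sound _ _ _ _ c103) (chkRoot3_sound _ _ _ _ c104))) (chkRoot3_sound _ _ _ _ c105))))))))))))) (Cov3_zs _ 1 8388608 _ _ (chkRoot3_sound _ _ _ _ c106) (Cov3_ys _ 0 16777216 _ _ (Cov3_yt _ 11863284 _ _ (by decide +kernel) (Cov3_zs _ 0 25165824 _ _ (Cov3_zt _ 14529496 _ _ (by decide +kernel) (Cov3_ys _ 0 8388608 _ _ (chkRoot3_sound _ _ _ _ c107) (Cov3_zs _ 1 11459052 _ _ (Cov3_zs _ 0 20971520 _ _ (Cov3_ys _ 1 5931642 _ _ (chkRoot3_sound _ _ _ _ c108) (Cov3_ys _ 0 12582912 _ _ (chkRoot3_sound _ _ _ _ c109) (chkRoot3_sound _ _ _ _ c110))) (chkRoot3_sound _ _ _ _ c111)) (Cov3_zs _ 0 20971520 _ _ (Cov3_zt _ 13263554 _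 _ (by decide +kernel) (Cov3_ys _ 1 5931642 _ _ (chkRoot3_sound _ _ _ _ c112) (chkRoot3_sound _ _ _ _ c113))) (Cov3_ys _ 1 5931642 _ _ (chkRoot3_sound _ _ _ _ c114) (Cov3_zs _ 1 12994274 _ _ (chkRoot3_sound _ _ _ _ c115) (chkRoot3_sound _ _ _ _ c116))))))) (Cov3_ys _ 0 8388608 _ _ (chkRoot3_sound _ _ _ _ c117) (Cov3_zs _ 0 29360128 _ _ (Cov3_zt _ 15693649 _ _ (by decide +kernel) (Cov3_zs _ 1 12041128 _ _ (chkRoot3_sound _ _ _ _ c118) (Cov3_ys _ 1 5931642 _ _ (chkRoot3_sound _ _ _ _ c119) (Cov3_zs _ 0 27262976 _ _ (chkRoot3_sound _ _ _ _ c120) (chkRoot3_sound _ _ _ _ c121))))) (Cov3_zs _ 1 12582912 _ _ (chkRoot3_sound _ _ _ _ c122) (Cov3_ys _ 1 5931642 _ _ (chkRoot3_sound _ _ _ _ c123) (Cov3_zs _ 1 14680064 _ _ (chkRoot3_sound _ _ _ _ c124) (Cov3_zs _ 0 31457280 _ _ (chkRoot3_sound _ _ _ _ c125) (chkRoot3_sound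 _ _ _ _ c126))))))))) (Cov3_zs _ 0 25165824 _ _ (Cov3_zt _ 14529496 _ _ (by decide +kernel) (Cov3_zs _ 1 11459052 _ _ (Cov3_ys _ 1 8388608 _ _ (chkRoot3_sound _ _ _ _ c127) (Cov3_zs _ 0 20971520 _ _ (Cov3_ys _ 0 25165824 _ _ (Cov3_yt _ 14529496 _ _ (by decide +kernel) (Cov3_zs _ 1 9923830 _ _ (Cov3_ys _ 1 11459052 _ _ (chkRoot3_sound _ _ _ _ c128) (chkRoot3_sound _ _ _ _ c129)) (Cov3_zs _ 0 18874368 _ _ (Cov3_ys _ 1 11459052 _ _ (chkRoot3_sound _ _ _ _ c130) (Cov3_ys _ 0 20971520 _ _ (chkRoot3_sound _ _ _ _ c131) (chkRoot3_sound _ _ _ _ c132))) (Cov3_ys _ 1 11459052 _ _ (chkRoot3_sound _ _ _ _ c133) (chkRoot3_sound _ _ _ _ c134))))) (Cov3_zs _ 0 18874368 _ _ (Cov3_ys _ 1 12582912 _ _ (chkRoot3_sound _ _ _ _ c135) (Cov3_zs _ 1 9923830 _ _ (Cov3_ys _ 1 14680064 _ _ (chkRoot3_sound _ _ _ _ c136) (Cov3_ys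 _ 0 29360128 _ _ (chkRoot3_sound _ _ _ _ c137) (Cov3_zs _ 1 9156219 _ _ (chkRoot3_sound _ _ _ _ c138) (chkRoot3_sound _ _ _ _ c139)))) (Cov3_ys _ 1 14680064 _ _ (Cov3_zs _ 0 17825792 _ _ (chkRoot3_sound _ _ _ _ c140) (chkRoot3_sound _ _ _ _ c141)) (Cov3_zs _ 1 10691441 _ _ (Cov3_ys _ 0 29360128 _ _ (chkRoot3_sound _ _ _ _ c142) (chkRoot3_sound _ _ _ _ c143)) (Cov3_ys _ 0 29360128 _ _ (chkRoot3_sound _ _ _ _ c144) (chkRoot3_sound _ _ _ _ c145)))))) (Cov3_ys _ 1 12582912 _ _ (chkRoot3_sound _ _ _ _ c146) (Cov3_zs _ 1 9923830 _ _ (chkRoot3_sound _ _ _ _ c147) (Cov3_ys _ 1 14680064 _ _ (chkRoot3_sound _ _ _ _ c148) (Cov3_ys _ 0 29360128 _ _ (chkRoot3_sound _ _ _ _ c149) (Cov3_zs _ 1 10691441 _ _ (chkRoot3_sound _ _ _ _ c150) (Cov3_zs _ 0 19922944 _ _ (chkRoot3_sound _ _ _ _ c151) (chkRoot3_sound _ _ _ _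 c152))))))))) (chkRoot3_sound _ _ _ _ c153))) (Cov3_ys _ 0 25165824 _ _ (Cov3_yt _ 14529496 _ _ (by decide +kernel) (Cov3_zs _ 0 20971520 _ _ (Cov3_zt _ 13263554 _ _ (by decide +kernel) (Cov3_ys _ 1 7264748 _ _ (chkRoot3_sound _ _ _ _ c154) (Cov3_zs _ 0 18874368 _ _ (Cov3_zt _ 12582913 _ _ (by decide +kernel) (Cov3_ys _ 1 10897122 _ _ (chkRoot3_sound _ _ _ _ c155) (Cov3_ys _ 0 20971520 _ _ (chkRoot3_sound _ _ _ _ c156) (chkRoot3_sound _ _ _ _ c157)))) (Cov3_ys _ 1 10897122 _ _ (chkRoot3_sound _ _ _ _ c158) (Cov3_ys _ 0 20971520 _ _ (chkRoot3_sound _ _ _ _ c159) (Cov3_zs _ 1 12361303 _ _ (chkRoot3_sound _ _ _ _ c160) (chkRoot3_sound _ _ _ _ c161))))))) (Cov3_ys _ 1 7264748 _ _ (chkRoot3_sound _ _ _ _ c162) (Cov3_zs _ 1 12994274 _ _ (Cov3_ys _ 1 10897122 _ _ (chkRoot3_sound _ _ _ _ c163) (Cov3_zs _ 0 23068672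 _ _ (Cov3_ys _ 0 20971520 _ _ (chkRoot3_sound _ _ _ _ c164) (Cov3_zs _ 1 12226663 _ _ (chkRoot3_sound _ _ _ _ c165) (Cov3_zs _ 0 22020096 _ _ (chkRoot3_sound _ _ _ _ c166) (chkRoot3_sound _ _ _ _ c167)))) (chkRoot3_sound _ _ _ _ c168))) (Cov3_zs _ 0 23068672 _ _ (Cov3_zt _ 13910933 _ _ (by decide +kernel) (Cov3_ys _ 1 10897122 _ _ (chkRoot3_sound _ _ _ _ c169) (Cov3_ys _ 0 20971520 _ _ (chkRoot3_sound _ _ _ _ c170) (Cov3_zs _ 0 22020096 _ _ (chkRoot3_sound _ _ _ _ c171) (chkRoot3_sound _ _ _ _ c172))))) (Cov3_ys _ 1 10897122 _ _ (chkRoot3_sound _ _ _ _ c173) (Cov3_ys _ 0 20971520 _ _ (chkRoot3_sound _ _ _ _ c174) (Cov3_zs _ 1 13761885 _ _ (Cov3_zs _ 0 24117248 _ _ (chkRoot3_sound _ _ _ _ c175) (chkRoot3_sound _ _ _ _ c176)) (chkRoot3_sound _ _ _ _ c177))))))))) (Cov3_zs _ 0 20971520 _ _ (Cov3_zt _ 13263554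 _ _ (by decide +kernel) (Cov3_ys _ 1 8388608 _ _ (chkRoot3_sound _ _ _ _ c178) (Cov3_zs _ 0 18874368 _ _ (Cov3_zt _ 12582913 _ _ (by decide +kernel) (Cov3_ys _ 0 29360128 _ _ (Cov3_yt _ 15693649 _ _ (by decide +kernel) (Cov3_ys _ 1 12041128 _ _ (chkRoot3_sound _ _ _ _ c179) (Cov3_zs _ 0 17825792 _ _ (chkRoot3_sound _ _ _ _ c180) (chkRoot3_sound _ _ _ _ c181)))) (Cov3_ys _ 1 12582912 _ _ (chkRoot3_sound _ _ _ _ c182) (Cov3_zs _ 0 17825792 _ _ (chkRoot3_sound _ _ _ _ c183) (chkRoot3_sound _ _ _ _ c184))))) (Cov3_ys _ 1 12582912 _ _ (chkRoot3_sound _ _ _ _ c185) (Cov3_ys _ 1 14680064 _ _ (Cov3_zs _ 1 12361303 _ _ (chkRoot3_sound _ _ _ _ c186) (chkRoot3_sound _ _ _ _ c187)) (Cov3_zs _ 1 12361303 _ _ (Cov3_ys _ 0 29360128 _ _ (chkRoot3_sound _ _ _ _ c188) (Cov3_zs _ 0 19922944 _ _ (chkRoot3_sound _ _ _ _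 c189) (Cov3_ys _ 1 15728640 _ _ (chkRoot3_sound _ _ _ _ c190) (chkRoot3_sound _ _ _ _ c191)))) (Cov3_ys _ 0 29360128 _ _ (chkRoot3_sound _ _ _ _ c192) (Cov3_zs _ 0 19922944 _ _ (chkRoot3_sound _ _ _ _ c193) (Cov3_zs _ 1 12812428 _ _ (chkRoot3_sound _ _ _ _ c194) (chkRoot3_sound _ _ _ _ c195)))))))))) (Cov3_ys _ 1 8388608 _ _ (chkRoot3_sound _ _ _ _ c196) (Cov3_zs _ 1 12994274 _ _ (Cov3_zs _ 0 23068672 _ _ (Cov3_ys _ 1 12582912 _ _ (chkRoot3_sound _ _ _ _ c197) (Cov3_ys _ 1 14680064 _ _ (Cov3_zs _ 1 12226663 _ _ (chkRoot3_sound _ _ _ _ c198) (chkRoot3_sound _ _ _ _ c199)) (Cov3_zs _ 1 12226663 _ _ (Cov3_ys _ 0 29360128 _ _ (chkRoot3_sound _ _ _ _ c200) (chkRoot3_sound _ _ _ _ c201)) (Cov3_ys _ 0 29360128 _ _ (chkRoot3_sound _ _ _ _ c202) (Cov3_zs _ 0 22020096 _ _ (Cov3_ys _ 1 15728640 _ _ (chkRoot3_sound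 _ _ _ _ c203) (chkRoot3_sound _ _ _ _ c204)) (Cov3_ys _ 1 15728640 _ _ (chkRoot3_sound _ _ _ _ c205) (chkRoot3_sound _ _ _ _ c206))))))) (chkRoot3_sound _ _ _ _ c207)) (Cov3_zs _ 0 23068672 _ _ (Cov3_zt _ 13910933 _ _ (by decide +kernel) (Cov3_ys _ 1 12582912 _ _ (chkRoot3_sound _ _ _ _ c208) (Cov3_ys _ 1 14680064 _ _ (chkRoot3_sound _ _ _ _ c209) (Cov3_ys _ 0 29360128 _ _ (Cov3_yt _ 15693649 _ _ (by decide +kernel) (Cov3_zs _ 1 13452603 _ _ (chkRoot3_sound _ _ _ _ c210) (chkRoot3_sound _ _ _ _ c211))) (Cov3_zs _ 0 22020096 _ _ (chkRoot3_sound _ _ _ _ c212) (Cov3_zs _ 1 13452603 _ _ (chkRoot3_sound _ _ _ _ c213) (chkRoot3_sound _ _ _ _ c214))))))) (Cov3_ys _ 1 12582912 _ _ (chkRoot3_sound _ _ _ _ c215) (Cov3_ys _ 1 14680064 _ _ (Cov3_zs _ 1 13761885 _ _ (chkRoot3_sound _ _ _ _ c216) (chkRoot3_sound _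 _ _ _ c217)) (Cov3_zs _ 1 13761885 _ _ (Cov3_ys _ 0 29360128 _ _ (Cov3_yt _ 15693649 _ _ (by decide +kernel) (Cov3_zs _ 0 24117248 _ _ (chkRoot3_sound _ _ _ _ c218) (chkRoot3_sound _ _ _ _ c219))) (Cov3_zs _ 0 24117248 _ _ (Cov3_ys _ 1 15728640 _ _ (chkRoot3_sound _ _ _ _ c220) (Cov3_zs _ 1 13378079 _ _ (chkRoot3_sound _ _ _ _ c221) (chkRoot3_sound _ _ _ _ c222))) (chkRoot3_sound _ _ _ _ c223))) (Cov3_ys _ 0 29360128 _ _ (Cov3_yt _ 15693649 _ _ (by decide +kernel) (Cov3_zs _ 0 24117248 _ _ (chkRoot3_sound _ _ _ _ c224) (chkRoot3_sound _ _ _ _ c225))) (Cov3_zs _ 0 24117248 _ _ (chkRoot3_sound _ _ _ _ c226) (Cov3_zs _ 1 14145690 _ _ (chkRoot3_sound _ _ _ _ c227) (chkRoot3_sound _ _ _ _ c228)))))))))))))) (Cov3_zs _ 1 12582912 _ _ (chkRoot3_sound _ _ _ _ c229) (Cov3_zs _ 1 14680064 _ _ (Cov3_ys _ 1 8388608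 _ _ (chkRoot3_sound _ _ _ _ c230) (Cov3_zs _ 0 29360128 _ _ (Cov3_ys _ 0 25165824 _ _ (Cov3_yt _ 14529496 _ _ (by decide +kernel) (Cov3_zs _ 1 13631488 _ _ (chkRoot3_sound _ _ _ _ c231) (Cov3_zs _ 0 27262976 _ _ (Cov3_ys _ 1 11459052 _ _ (chkRoot3_sound _ _ _ _ c232) (Cov3_ys _ 0 20971520 _ _ (chkRoot3_sound _ _ _ _ c233) (Cov3_zs _ 1 14155776 _ _ (chkRoot3_sound _ _ _ _ c234) (Cov3_zs _ 0 26214400 _ _ (chkRoot3_sound _ _ _ _ c235) (chkRoot3_sound _ _ _ _ c236))))) (chkRoot3_sound _ _ _ _ c237)))) (Cov3_zs _ 0 27262976 _ _ (Cov3_ys _ 1 12582912 _ _ (chkRoot3_sound _ _ _ _ c238) (Cov3_zs _ 1 13631488 _ _ (chkRoot3_sound _ _ _ _ c239) (Cov3_ys _ 1 14680064 _ _ (Cov3_zs _ 1 14155776 _ _ (chkRoot3_sound _ _ _ _ c240) (chkRoot3_sound _ _ _ _ c241)) (Cov3_zs _ 1 14155776 _ _ (Cov3_ys _ 0 29360128 _ _ (chkRoot3_sound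 _ _ _ _ c242) (chkRoot3_sound _ _ _ _ c243)) (Cov3_ys _ 0 29360128 _ _ (chkRoot3_sound _ _ _ _ c244) (Cov3_zs _ 0 26214400 _ _ (Cov3_ys _ 1 15728640 _ _ (chkRoot3_sound _ _ _ _ c245) (Cov3_zs _ 1 14417920 _ _ (chkRoot3_sound _ _ _ _ c246) (chkRoot3_sound _ _ _ _ c247))) (Cov3_ys _ 1 15728640 _ _ (chkRoot3_sound _ _ _ _ c248) (chkRoot3_sound _ _ _ _ c249)))))))) (chkRoot3_sound _ _ _ _ c250))) (chkRoot3_sound _ _ _ _ c251))) (Cov3_zs _ 0 29360128 _ _ (Cov3_zt _ 15693649 _ _ (by decide +kernel) (Cov3_ys _ 1 8388608 _ _ (chkRoot3_sound _ _ _ _ c252) (Cov3_ys _ 0 25165824 _ _ (Cov3_yt _ 14529496 _ _ (by decide +kernel) (Cov3_zs _ 0 27262976 _ _ (Cov3_zt _ 15122779 _ _ (by decide +kernel) (Cov3_ys _ 1 11459052 _ _ (chkRoot3_sound _ _ _ _ c253) (chkRoot3_sound _ _ _ _ c254))) (Cov3_ys _ 1 11459052 _ _ (chkRoot3_sound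 _ _ _ _ c255) (Cov3_ys _ 0 20971520 _ _ (chkRoot3_sound _ _ _ _ c256) (Cov3_zs _ 1 15186856 _ _ (chkRoot3_sound _ _ _ _ c257) (chkRoot3_sound _ _ _ _ c258)))))) (Cov3_zs _ 0 27262976 _ _ (Cov3_zt _ 15122779 _ _ (by decide +kernel) (Cov3_ys _ 1 12582912 _ _ (chkRoot3_sound _ _ _ _ c259) (Cov3_ys _ 1 14680064 _ _ (chkRoot3_sound _ _ _ _ c260) (Cov3_ys _ 0 29360128 _ _ (chkRoot3_sound _ _ _ _ c261) (Cov3_zs _ 0 26214400 _ _ (chkRoot3_sound _ _ _ _ c262) (Cov3_ys _ 1 15728640 _ _ (chkRoot3_sound _ _ _ _ c263) (Cov3_zs _ 1 14901421 _ _ (chkRoot3_sound _ _ _ _ c264) (chkRoot3_sound _ _ _ _ c265)))))))) (Cov3_ys _ 1 12582912 _ _ (chkRoot3_sound _ _ _ _ c266) (Cov3_ys _ 1 14680064 _ _ (Cov3_zs _ 1 15186856 _ _ (chkRoot3_sound _ _ _ _ c267) (chkRoot3_sound _ _ _ _ c268)) (Cov3_zs _ 1 15186856 _ _ (Cov3_ys _ 0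 29360128 _ _ (chkRoot3_sound _ _ _ _ c269) (Cov3_zs _ 0 28311552 _ _ (Cov3_ys _ 1 15728640 _ _ (chkRoot3_sound _ _ _ _ c270) (Cov3_zs _ 1 14933460 _ _ (chkRoot3_sound _ _ _ _ c271) (chkRoot3_sound _ _ _ _ c272))) (chkRoot3_sound _ _ _ _ c273))) (Cov3_zs _ 0 28311552 _ _ (chkRoot3_sound _ _ _ _ c274) (Cov3_ys _ 0 29360128 _ _ (chkRoot3_sound _ _ _ _ c275) (Cov3_zs _ 1 15440252 _ _ (Cov3_ys _ 1 15728640 _ _ (chkRoot3_sound _ _ _ _ c276) (chkRoot3_sound _ _ _ _ c277)) (chkRoot3_sound _ _ _ _ c278))))))))))) (Cov3_ys _ 1 8388608 _ _ (chkRoot3_sound _ _ _ _ c279) (Cov3_zs _ 1 15728640 _ _ (Cov3_ys _ 0 25165824 _ _ (Cov3_yt _ 14529496 _ _ (by decide +kernel) (Cov3_zs _ 0 31457280 _ _ (Cov3_ys _ 1 11459052 _ _ (chkRoot3_sound _ _ _ _ c280) (chkRoot3_sound _ _ _ _ c281)) (chkRoot3_sound _ _ _ _ c282))) (Cov3_zs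 _ 0 31457280 _ _ (Cov3_ys _ 1 12582912 _ _ (chkRoot3_sound _ _ _ _ c283) (Cov3_zs _ 1 15204352 _ _ (chkRoot3_sound _ _ _ _ c284) (Cov3_ys _ 1 14680064 _ _ (chkRoot3_sound _ _ _ _ c285) (Cov3_zs _ 0 30408704 _ _ (Cov3_ys _ 0 29360128 _ _ (chkRoot3_sound _ _ _ _ c286) (Cov3_zs _ 1 15466496 _ _ (chkRoot3_sound _ _ _ _ c287) (Cov3_ys _ 1 15728640 _ _ (chkRoot3_sound _ _ _ _ c288) (chkRoot3_sound _ _ _ _ c289)))) (chkRoot3_sound _ _ _ _ c290))))) (chkRoot3_sound _ _ _ _ c291))) (Cov3_zs _ 0 31457280 _ _ (Cov3_zt _ 16244470 _ _ (by decide +kernel) (Cov3_ys _ 0 25165824 _ _ (Cov3_yt _ 14529496 _ _ (by decide +kernel) (Cov3_ys _ 1 11459052 _ _ (chkRoot3_sound _ _ _ _ c292) (Cov3_ys _ 0 20971520 _ _ (chkRoot3_sound _ _ _ _ c293) (chkRoot3_sound _ _ _ _ c294)))) (Cov3_ys _ 1 12582912 _ _ (chkRoot3_sound _ _ _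 _ c295) (Cov3_zs _ 0 30408704 _ _ (Cov3_zt _ 15971434 _ _ (by decide +kernel) (Cov3_ys _ 1 14680064 _ _ (chkRoot3_sound _ _ _ _ c296) (Cov3_ys _ 0 29360128 _ _ (chkRoot3_sound _ _ _ _ c297) (chkRoot3_sound _ _ _ _ c298)))) (Cov3_ys _ 1 14680064 _ _ (chkRoot3_sound _ _ _ _ c299) (Cov3_ys _ 0 29360128 _ _ (chkRoot3_sound _ _ _ _ c300) (Cov3_zs _ 1 15986555 _ _ (chkRoot3_sound _ _ _ _ c301) (chkRoot3_sound _ _ _ _ c302)))))))) (Cov3_ys _ 0 25165824 _ _ (Cov3_yt _ 14529496 _ _ (by decide +kernel) (Cov3_zs _ 1 16252928 _ _ (chkRoot3_sound _ _ _ _ c303) (Cov3_zs _ 0 32505856 _ _ (chkRoot3_sound _ _ _ _ c304) (chkRoot3_sound _ _ _ _ c305)))) (Cov3_zs _ 1 16252928 _ _ (Cov3_ys _ 1 12582912 _ _ (chkRoot3_sound _ _ _ _ c306) (Cov3_zs _ 0 32505856 _ _ (Cov3_ys _ 1 14680064 _ _ (chkRoot3_sound _ _ _ _ c307) (chkRoot3_sound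 _ _ _ _ c308)) (chkRoot3_sound _ _ _ _ c309))) (Cov3_zs _ 0 32505856 _ _ (Cov3_zt _ 16512992 _ _ (by decide +kernel) (Cov3_ys _ 1 12582912 _ _ (chkRoot3_sound _ _ _ _ c310) (Cov3_ys _ 1 14680064 _ _ (chkRoot3_sound _ _ _ _ c311) (Cov3_ys _ 0 29360128 _ _ (chkRoot3_sound _ _ _ _ c312) (chkRoot3_sound _ _ _ _ c313))))) (Cov3_ys _ 1 12582912 _ _ (chkRoot3_sound _ _ _ _ c314) (Cov3_ys _ 1 14680064 _ _ (chkRoot3_sound _ _ _ _ c315) (Cov3_zs _ 1 16515072 _ _ (chkRoot3_sound _ _ _ _ c316) (Cov3_zs _ 0 33030144 _ _ (chkRoot3_sound _ _ _ _ c317) (chkRoot3_sound _ _ _ _ c318))))))))))))))))))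

end Vale.Agent.P154q3.C
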