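import Vale.Agent.P154q4.TM

namespace Vale.Agent.P154q3.C

noncomputable section

open Vale.Agent.P154q4.TMC MT in
/-- Data of one sign branch. -/
def DInn : Data :=
  ⟨false, false, 35,
   (p (p (p (p nil nil) nil) nil) (t (p (p (p (p nil nil) nil) (t (p (p nil (t (p nil nil) nil)) nil) nil)) nil) nil)),
   (p (p (p (p nil nil) nil) nil) (t (p (p (p (p nil nil) nil) (t (p (p nil (t (p nil nil) nil)) nil) nil)) nil) nil)),
  [[Int.ofNat 40265318400, Int.negSucc 15602810879, Int.negSucc 16986931199, Int.ofNat 0, Int.ofNat 0, Int.ofNat 60397977600, Int.negSucc 65431142399, Int.ofNat 0, Int.ofNat 0, Int.ofNat 0, Int.ofNat 0, Int.ofNat 0, Int.ofNat 0, Int.ofNat 0, Int.ofNat 0],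
  [Int.negSucc 15602810879, Int.ofNat 9112237488, Int.ofNat 21825979200, Int.negSucc 24351297299, Int.ofNat 0, Int.negSucc 76126617599, Int.ofNat 189687398400, Int.negSucc 117292955999, Int.ofNat 0, Int.ofNat 0, Int.negSucc 33973862399, Int.ofNat 0, Int.ofNat 0, Int.ofNat 0, Int.ofNat 0],
  [Int.negSucc 16986931199, Int.ofNat 21825979200, Int.ofNat 39288579400, Int.ofNat 23801759850, Int.negSucc 5083704449, Int.ofNat 33973862400, Int.negSucc 163791550799, Int.ofNat 212153607900, Int.negSucc 55171432299, Int.ofNat 0, Int.ofNat 72130724800, Int.negSucc 83922831599, Int.ofNat 1848619800, Int.ofNat 2395700000, Int.ofNat 0],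
  [Int.ofNat 0, Int.negSucc 24351297299, Int.ofNat 23801759850, Int.negSucc 24867032924, Int.negSucc 2606459174, Int.ofNat 0, Int.ofNat 48702594600, Int.negSucc 75036034799, Int.ofNat 23175841725, Int.negSucc 1952511749, Int.negSucc 35220236999, Int.ofNat 72755687400, Int.negSucc 12182904899, Int.negSucc 11146174199, Int.ofNat 503874000],
  [Int.ofNat 0, Int.ofNat 0, Int.negSucc 5083704449, Int.negSucc 2606459174, Int.ofNat 9101544750, Int.ofNat 0, Int.ofNat 0, Int.ofNat 8318789100, Int.ofNat 254371050, Int.negSucc 976255874, Int.ofNat 1848619800, Int.negSucc 3864115799, Int.negSucc 8367810299, Int.ofNat 1007748000, Int.ofNat 251937000],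
  [Int.ofNat 60397977600, Int.negSucc 76126617599, Int.ofNat 33973862400, Int.ofNat 0, Int.ofNat 0, Int.ofNat 21810380800, Int.negSucc 3774873599, Int.ofNat 28311552000, Int.ofNat 0, Int.ofNat 0, Int.ofNat 41943040000, Int.ofNat 0, Int.ofNat 0, Int.ofNat 0, Int.ofNat 0],
  [Int.negSucc 65431142399, Int.ofNat 189687398400, Int.negSucc 163791550799, Int.ofNat 48702594600, Int.ofNat 0, Int.negSucc 3774873599, Int.negSucc 17610095599, Int.negSucc 23561624999, Int.ofNat 26990698500, Int.ofNat 0, Int.negSucc 190706327999, Int.ofNat 99747192800, Int.ofNat 0, Int.ofNat 0, Int.ofNat 0],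
  [Int.ofNat 0, Int.negSucc 117292955999, Int.ofNat 212153607900, Int.negSucc 75036034799, Int.ofNat 8318789100, Int.ofNat 28311552000, Int.negSucc 23561624999, Int.negSucc 125907609599, Int.ofNat 35841101400, Int.ofNat 1322669250, Int.ofNat 134883855600, Int.negSucc 176817295199, Int.ofNat 23928432600, Int.ofNat 21592558800, Int.ofNat 0],
  [Int.ofNat 0, Int.ofNat 0, Int.negSucc 55171432299, Int.ofNat 23175841725, Int.ofNat 254371050, Int.ofNat 0, Int.ofNat 26990698500, Int.ofNat 35841101400, Int.negSucc 22994318524, Int.ofNat 2991751875, Int.negSucc 19196858799, Int.ofNat 22898856600, Int.ofNat 1168053300, Int.negSucc 14210106199, Int.ofNat 1763559000],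
  [Int.ofNat 0, Int.ofNat 0, Int.ofNat 0, Int.negSucc 1952511749, Int.negSucc 976255874, Int.ofNat 0, Int.ofNat 0, Int.ofNat 1322669250, Int.ofNat 2991751875, Int.negSucc 6424393499, Int.ofNat 0, Int.negSucc 1007747999, Int.negSucc 503873999, Int.ofNat 251937000, Int.ofNat 4156960500],
  [Int.ofNat 0, Int.negSucc 33973862399, Int.ofNat 72130724800, Int.negSucc 35220236999, Int.ofNat 1848619800, Int.ofNat 41943040000, Int.negSucc 190706327999, Int.ofNat 134883855600, Int.negSucc 19196858799, Int.ofNat 0, Int.negSucc 103973523199, Int.ofNat 75944155200, Int.negSucc 7394479199, Int.negSucc 9582799999, Int.ofNat 0],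
  [Int.ofNat 0, Int.ofNat 0, Int.negSucc 83922831599, Int.ofNat 72755687400, Int.negSucc 3864115799, Int.ofNat 0, Int.ofNat 99747192800, Int.negSucc 176817295199, Int.ofNat 22898856600, Int.negSucc 1007747999, Int.ofNat 75944155200, Int.negSucc 109907561599, Int.negSucc 6726974399, Int.ofNat 44584696800, Int.negSucc 2015495999],
  [Int.ofNat 0, Int.ofNat 0, Int.ofNat 1848619800, Int.negSucc 12182904899, Int.negSucc 8367810299, Int.ofNat 0, Int.ofNat 0, Int.ofNat 23928432600, Int.ofNat 1168053300, Int.negSucc 503873999, Int.negSucc 7394479199, Int.negSucc 6726974399, Int.ofNat 42307600200, Int.negSucc 4030991999, Int.negSucc 1007747999],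
  [Int.ofNat 0, Int.ofNat 0, Int.ofNat 2395700000, Int.negSucc 11146174199, Int.ofNat 1007748000, Int.ofNat 0, Int.ofNat 0, Int.ofNat 21592558800, Int.negSucc 14210106199, Int.ofNat 251937000, Int.negSucc 9582799999, Int.ofNat 44584696800, Int.negSucc 4030991999, Int.ofNat 21369272000, Int.ofNat 0],
  [Int.ofNat 0, Int.ofNat 0, Int.ofNat 0, Int.ofNat 503874000, Int.ofNat 251937000, Int.ofNat 0, Int.ofNat 0, Int.ofNat 0, Int.ofNat 1763559000, Int.ofNat 4156960500, Int.ofNat 0, Int.negSucc 2015495999, Int.negSucc 1007747999, Int.ofNat 0, Int.negSucc 11085227999]],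
  false, 0, 1⟩

end

end Vale.Agent.P154q3.C
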