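import Vale.Agent.P154q4.TM

namespace Vale.Agent.P154q3.C

noncomputable section

open Vale.Agent.P154q4.TMC MT in
/-- Data of one sign branch. -/
def DIpn : Data :=
  ⟨true, false, 35,
   (p (p (p (p nil nil) nil) nil) (t (p (p (p (p nil nil) nil) (t (p (p nil (t (p nil nil) nil)) nil) nil)) nil) nil)),
   (p (p (p (p nil nil) nil) nil) (t (p (p (p (p nil nil) nil) (t (p (p nil (t (p nil nil) nil)) nil) nil)) nil) nil)),
  [[Int.ofNat 40265318400, Int.negSucc 15602810879, Int.negSucc 16986931199, Int.ofNat 0, Int.ofNat 0, Int.negSucc 60397977599, Int.ofNat 65431142400, Int.ofNat 0, Int.ofNat 0, Int.ofNat 0, Int.ofNat 0, Int.ofNat 0, Int.ofNat 0, Int.ofNat 0, Int.ofNat 0],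
  [Int.negSucc 15602810879, Int.ofNat 9112237488, Int.ofNat 21825979200, Int.negSucc 24351297299, Int.ofNat 0, Int.ofNat 76126617600, Int.negSucc 189687398399, Int.ofNat 117292956000, Int.ofNat 0, Int.ofNat 0, Int.negSucc 33973862399, Int.ofNat 0, Int.ofNat 0, Int.ofNat 0, Int.ofNat 0],
  [Int.negSucc 16986931199, Int.ofNat 21825979200, Int.ofNat 39288579400, Int.ofNat 23801759850, Int.negSucc 5083704449, Int.negSucc 33973862399, Int.ofNat 163791550800, Int.negSucc 212153607899, Int.ofNat 55171432300, Int.ofNat 0, Int.ofNat 72130724800, Int.negSucc 83922831599, Int.ofNat 1848619800, Int.negSucc 2395699999, Int.ofNat 0],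
  [Int.ofNat 0, Int.negSucc 24351297299, Int.ofNat 23801759850, Int.negSucc 24867032924, Int.negSucc 2606459174, Int.ofNat 0, Int.negSucc 48702594599, Int.ofNat 75036034800, Int.negSucc 23175841724, Int.ofNat 1952511750, Int.negSucc 35220236999, Int.ofNat 72755687400, Int.negSucc 12182904899, Int.ofNat 11146174200, Int.negSucc 503873999],
  [Int.ofNat 0, Int.ofNat 0, Int.negSucc 5083704449, Int.negSucc 2606459174, Int.ofNat 9101544750, Int.ofNat 0, Int.ofNat 0, Int.negSucc 8318789099, Int.negSucc 254371049, Int.ofNat 976255875, Int.ofNat 1848619800, Int.negSucc 3864115799, Int.negSucc 8367810299, Int.negSucc 1007747999, Int.negSucc 251936999],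
  [Int.ofNat 60397977600, Int.negSucc 76126617599, Int.ofNat 33973862400, Int.ofNat 0, Int.ofNat 0, Int.negSucc 21810380799, Int.ofNat 3774873600, Int.negSucc 28311551999, Int.ofNat 0, Int.ofNat 0, Int.ofNat 41943040000, Int.ofNat 0, Int.ofNat 0, Int.ofNat 0, Int.ofNat 0],
  [Int.negSucc 65431142399, Int.ofNat 189687398400, Int.negSucc 163791550799, Int.ofNat 48702594600, Int.ofNat 0, Int.ofNat 3774873600, Int.ofNat 17610095600, Int.ofNat 23561625000, Int.negSucc 26990698499, Int.ofNat 0, Int.negSucc 190706327999, Int.ofNat 99747192800, Int.ofNat 0, Int.ofNat 0, Int.ofNat 0],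
  [Int.ofNat 0, Int.negSucc 117292955999, Int.ofNat 212153607900, Int.negSucc 75036034799, Int.ofNat 8318789100, Int.negSucc 28311551999, Int.ofNat 23561625000, Int.ofNat 125907609600, Int.negSucc 35841101399, Int.negSucc 1322669249, Int.ofNat 134883855600, Int.negSucc 176817295199, Int.ofNat 23928432600, Int.negSucc 21592558799, Int.ofNat 0],
  [Int.ofNat 0, Int.ofNat 0, Int.negSucc 55171432299, Int.ofNat 23175841725, Int.ofNat 254371050, Int.ofNat 0, Int.negSucc 26990698499, Int.negSucc 35841101399, Int.ofNat 22994318525, Int.negSucc 2991751874, Int.negSucc 19196858799, Int.ofNat 22898856600, Int.ofNat 1168053300, Int.ofNat 14210106200, Int.negSucc 1763558999],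
  [Int.ofNat 0, Int.ofNat 0, Int.ofNat 0, Int.negSucc 1952511749, Int.negSucc 976255874, Int.ofNat 0, Int.ofNat 0, Int.negSucc 1322669249, Int.negSucc 2991751874, Int.ofNat 6424393500, Int.ofNat 0, Int.negSucc 1007747999, Int.negSucc 503873999, Int.negSucc 251936999, Int.negSucc 4156960499],
  [Int.ofNat 0, Int.negSucc 33973862399, Int.ofNat 72130724800, Int.negSucc 35220236999, Int.ofNat 1848619800, Int.negSucc 41943039999, Int.ofNat 190706328000, Int.negSucc 134883855599, Int.ofNat 19196858800, Int.ofNat 0, Int.negSucc 103973523199, Int.ofNat 75944155200, Int.negSucc 7394479199, Int.ofNat 9582800000, Int.ofNat 0],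
  [Int.ofNat 0, Int.ofNat 0, Int.negSucc 83922831599, Int.ofNat 72755687400, Int.negSucc 3864115799, Int.ofNat 0, Int.negSucc 99747192799, Int.ofNat 176817295200, Int.negSucc 22898856599, Int.ofNat 1007748000, Int.ofNat 75944155200, Int.negSucc 109907561599, Int.negSucc 6726974399, Int.negSucc 44584696799, Int.ofNat 2015496000],
  [Int.ofNat 0, Int.ofNat 0, Int.ofNat 1848619800, Int.negSucc 12182904899, Int.negSucc 8367810299, Int.ofNat 0, Int.ofNat 0, Int.negSucc 23928432599, Int.negSucc 1168053299, Int.ofNat 503874000, Int.negSucc 7394479199, Int.negSucc 6726974399, Int.ofNat 42307600200, Int.ofNat 4030992000, Int.ofNat 1007748000],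
  [Int.ofNat 0, Int.ofNat 0, Int.ofNat 2395700000, Int.negSucc 11146174199, Int.ofNat 1007748000, Int.ofNat 0, Int.ofNat 0, Int.negSucc 21592558799, Int.ofNat 14210106200, Int.negSucc 251936999, Int.negSucc 9582799999, Int.ofNat 44584696800, Int.negSucc 4030991999, Int.negSucc 21369271999, Int.ofNat 0],
  [Int.ofNat 0, Int.ofNat 0, Int.ofNat 0, Int.ofNat 503874000, Int.ofNat 251937000, Int.ofNat 0, Int.ofNat 0, Int.ofNat 0, Int.negSucc 1763558999, Int.negSucc 4156960499, Int.ofNat 0, Int.negSucc 2015495999, Int.negSucc 1007747999, Int.ofNat 0, Int.ofNat 11085228000]],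
  false, 0, 1⟩

end

end Vale.Agent.P154q3.C
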