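import Vale.Agent.P154q4.TM

namespace Vale.Agent.P154q3.C

noncomputable section

open Vale.Agent.P154q4.TMC MT in
/-- Data of one sign branch. -/
def DIpp : Data :=
  ⟨true, true, 35,
   (p (p (p (p nil nil) nil) nil) (t (p (p (p (p nil nil) nil) (t (p (p nil (t (p nil nil) nil)) nil) nil)) nil) nil)),
   (p (p (p (p nil nil) nil) nil) (t (p (p (p (p nil nil) nil) (t (p (p nil (t (p nil nil) nil)) nil) nil)) nil) nil)),
  [[Int.ofNat 40265318400, Int.negSucc 15602810879, Int.negSucc 16986931199, Int.ofNat 0, Int.ofNat 0, Int.negSucc 60397977599, Int.ofNat 65431142400, Int.ofNat 0, Int.ofNat 0, Int.ofNat 0, Int.ofNat 0, Int.ofNat 0, Int.ofNat 0, Int.ofNat 0, Int.ofNat 0],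
  [Int.negSucc 15602810879, Int.ofNat 9112237488, Int.ofNat 21825979200, Int.negSucc 24351297299, Int.ofNat 0, Int.ofNat 76126617600, Int.negSucc 189687398399, Int.ofNat 117292956000, Int.ofNat 0, Int.ofNat 0, Int.negSucc 33973862399, Int.ofNat 0, Int.ofNat 0, Int.ofNat 0, Int.ofNat 0],
  [Int.negSucc 16986931199, Int.ofNat 21825979200, Int.ofNat 39288579400, Int.ofNat 23801759850, Int.negSucc 5083704449, Int.negSucc 33973862399, Int.ofNat 163791550800, Int.negSucc 212153607899, Int.ofNat 55171432300, Int.ofNat 0, Int.ofNat 72130724800, Int.negSucc 83922831599, Int.ofNat 1848619800, Int.negSucc 2395699999, Int.ofNat 0],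
  [Int.ofNat 0, Int.negSucc 24351297299, Int.ofNat 23801759850, Int.negSucc 24867032924, Int.negSucc 2606459174, Int.ofNat 0, Int.negSucc 48702594599, Int.ofNat 75036034800, Int.negSucc 23175841724, Int.ofNat 1952511750, Int.negSucc 35220236999, Int.ofNat 72755687400, Int.negSucc 12182904899, Int.ofNat 11146174200, Int.negSucc 503873999],
  [Int.ofNat 0, Int.ofNat 0, Int.negSucc 5083704449, Int.negSucc 2606459174, Int.ofNat 9101544750, Int.ofNat 0, Int.ofNat 0, Int.negSucc 8318789099, Int.negSucc 254371049, Int.ofNat 976255875, Int.ofNat 1848619800, Int.negSucc 3864115799, Int.negSucc 8367810299, Int.negSucc 1007747999, Int.negSucc 251936999],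
  [Int.negSucc 60397977599, Int.ofNat 76126617600, Int.negSucc 33973862399, Int.ofNat 0, Int.ofNat 0, Int.ofNat 21810380800, Int.negSucc 3774873599, Int.ofNat 28311552000, Int.ofNat 0, Int.ofNat 0, Int.negSucc 41943039999, Int.ofNat 0, Int.ofNat 0, Int.ofNat 0, Int.ofNat 0],
  [Int.ofNat 65431142400, Int.negSucc 189687398399, Int.ofNat 163791550800, Int.negSucc 48702594599, Int.ofNat 0, Int.negSucc 3774873599, Int.negSucc 17610095599, Int.negSucc 23561624999, Int.ofNat 26990698500, Int.ofNat 0, Int.ofNat 190706328000, Int.negSucc 99747192799, Int.ofNat 0, Int.ofNat 0, Int.ofNat 0],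
  [Int.ofNat 0, Int.ofNat 117292956000, Int.negSucc 212153607899, Int.ofNat 75036034800, Int.negSucc 8318789099, Int.ofNat 28311552000, Int.negSucc 23561624999, Int.negSucc 125907609599, Int.ofNat 35841101400, Int.ofNat 1322669250, Int.negSucc 134883855599, Int.ofNat 176817295200, Int.negSucc 23928432599, Int.ofNat 21592558800, Int.ofNat 0],
  [Int.ofNat 0, Int.ofNat 0, Int.ofNat 55171432300, Int.negSucc 23175841724, Int.negSucc 254371049, Int.ofNat 0, Int.ofNat 26990698500, Int.ofNat 35841101400, Int.negSucc 22994318524, Int.ofNat 2991751875, Int.ofNat 19196858800, Int.negSucc 22898856599, Int.negSucc 1168053299, Int.negSucc 14210106199, Int.ofNat 1763559000],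
  [Int.ofNat 0, Int.ofNat 0, Int.ofNat 0, Int.ofNat 1952511750, Int.ofNat 976255875, Int.ofNat 0, Int.ofNat 0, Int.ofNat 1322669250, Int.ofNat 2991751875, Int.negSucc 6424393499, Int.ofNat 0, Int.ofNat 1007748000, Int.ofNat 503874000, Int.ofNat 251937000, Int.ofNat 4156960500],
  [Int.ofNat 0, Int.negSucc 33973862399, Int.ofNat 72130724800, Int.negSucc 35220236999, Int.ofNat 1848619800, Int.negSucc 41943039999, Int.ofNat 190706328000, Int.negSucc 134883855599, Int.ofNat 19196858800, Int.ofNat 0, Int.negSucc 103973523199, Int.ofNat 75944155200, Int.negSucc 7394479199, Int.ofNat 9582800000, Int.ofNat 0],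
  [Int.ofNat 0, Int.ofNat 0, Int.negSucc 83922831599, Int.ofNat 72755687400, Int.negSucc 3864115799, Int.ofNat 0, Int.negSucc 99747192799, Int.ofNat 176817295200, Int.negSucc 22898856599, Int.ofNat 1007748000, Int.ofNat 75944155200, Int.negSucc 109907561599, Int.negSucc 6726974399, Int.negSucc 44584696799, Int.ofNat 2015496000],
  [Int.ofNat 0, Int.ofNat 0, Int.ofNat 1848619800, Int.negSucc 12182904899, Int.negSucc 8367810299, Int.ofNat 0, Int.ofNat 0, Int.negSucc 23928432599, Int.negSucc 1168053299, Int.ofNat 503874000, Int.negSucc 7394479199, Int.negSucc 6726974399, Int.ofNat 42307600200, Int.ofNat 4030992000, Int.ofNat 1007748000],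
  [Int.ofNat 0, Int.ofNat 0, Int.negSucc 2395699999, Int.ofNat 11146174200, Int.negSucc 1007747999, Int.ofNat 0, Int.ofNat 0, Int.ofNat 21592558800, Int.negSucc 14210106199, Int.ofNat 251937000, Int.ofNat 9582800000, Int.negSucc 44584696799, Int.ofNat 4030992000, Int.ofNat 21369272000, Int.ofNat 0],
  [Int.ofNat 0, Int.ofNat 0, Int.ofNat 0, Int.negSucc 503873999, Int.negSucc 251936999, Int.ofNat 0, Int.ofNat 0, Int.ofNat 0, Int.ofNat 1763559000, Int.ofNat 4156960500, Int.ofNat 0, Int.ofNat 2015496000, Int.ofNat 1007748000, Int.ofNat 0, Int.negSucc 11085227999]],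
  false, 0, 1⟩

end

end Vale.Agent.P154q3.C
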