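import Vale.Agent.P154q3.C.IdBase
import Vale.Agent.P154q3.C.IdI1
import Vale.Agent.P154q3.C.IdI2
import Vale.Agent.P154q3.C.IdI3
import Vale.Agent.P154q3.C.IdI4
import Vale.Agent.P154q3.C.IdI5
import Vale.Agent.P154q3.C.IdI6

/-! The two polynomial identities. -/

namespace Vale.Agent.P154q3.C

noncomputable section

namespace IdP

open Vale.Agent.P154q4.D5.P6

/-- The six elements of the orbit, first inequality. -/
def LI6 : Poly :=
  smul 400 (mergeAll 3 [Lit1, Lit2, Lit3, Lit4, Lit5, Lit6])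

/-- The right side of the first identity. -/
def RPI : Poly :=
  mergeAll 2 [smul 9 (evTP 9 termsFI Pp3 Pt Pq3 Pr),
    smul 165112971264 (add (mul (Pw5 Pq3) PLz) (mul (Pw5 Pp3) PLm))]

theorem checkI : beqP LI6 RPI = true := by decide +kernel

/-- The six elements of the orbit, second inequality. -/
def LM6 : Poly :=
  smul 800 (mergeAll 3 [P0M v4 v5, P0M v4 Pe, P0M v5 v4, P0M v5 Pe, P0M Pe v4, P0M Pe v5])

/-- The right side of the second identity. -/
def RPM : Poly :=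
  mergeAll 3 [smul 8255648563200 (add Pp3 Pq3),
    smul (-30958682112) (add (mul (sb (smul 2 Pq3) (smul 3 Pr)) PLz) (mul (sb (smul 2 Pp3) (smul 3 Pt)) PLm)),
    smul (-27518828544) (mul Pp3 Pq3),
    smul (-9) (evTP 7 termsFM Pp3 Pt Pq3 Pr)]

theorem checkM : beqP LM6 RPM = true := by decide +kernel

end IdP

/-- The first identity. -/
theorem identI (a b c d : ℝ) :
    (400 : ℝ) * ((171992678400 : ℝ) * (PlowI a b c d + PlowI a b c (-c - d) + PlowI a b d c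
        + PlowI a b d (-c - d) + PlowI a b (-c - d) c + PlowI a b (-c - d) d))
      = (9 : ℝ) * evT termsFI (2 * a ^ 2 + 2 * a * b + 2 * b ^ 2) (a * b * (-a - b))
            (2 * c ^ 2 + 2 * c * d + 2 * d ^ 2) (c * d * (-c - d))
        + (165112971264 : ℝ) * ((5 - (2 * c ^ 2 + 2 * c * d + 2 * d ^ 2)) ^ 2
              * (100 * (a * b * (-a - b)) - 3 * (2 * a ^ 2 + 2 * a * b + 2 * b ^ 2) ^ 2)
            + (5 - (2 * a ^ 2 + 2 * a * b + 2 * b ^ 2)) ^ 2
              * (100 * (c * d * (-c - d)) - 3 * (2 * c ^ 2 + 2 * c * d + 2 * d ^ 2) ^ 2)) := by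
  open Vale.Agent.P154q4.D5.P6 IdP in
  have h := ev_of_beqP _ _ checkI a b 0 c d 0
  unfold LI6 RPI at h
  rw [ev_smul, ev_mergeAll, ev_mergeAll] at h
  simp only [evs, List.map_cons, List.map_nil, List.sum_cons, List.sum_nil, add_zero, ev_smul, ev_add, ev_mul,
    ← ev_of_beqP _ _ lit1, ← ev_of_beqP _ _ lit2, ← ev_of_beqP _ _ lit3, ← ev_of_beqP _ _ lit4,
    ← ev_of_beqP _ _ lit5, ← ev_of_beqP _ _ lit6,
    P0I_spec, ev_evTP, ev_v4, ev_v5, ev_Pe, ev_Pp3, ev_Pt, ev_Pq3, ev_Pr, ev_Pw5, ev_PLz, ev_PLm] at h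
  push_cast at h
  linarith only [h]

/-- The second identity. -/
theorem identM (a b c d : ℝ) :
    (800 : ℝ) * ((5159780352 : ℝ) * (UM a b c d + UM a b c (-c - d) + UM a b d c
        + UM a b d (-c - d) + UM a b (-c - d) c + UM a b (-c - d) d))
      = (8255648563200 : ℝ) * ((2 * a ^ 2 + 2 * a * b + 2 * b ^ 2) + (2 * c ^ 2 + 2 * c * d + 2 * d ^ 2))
        - (30958682112 : ℝ) * ((2 * (2 * c ^ 2 + 2 * c * d + 2 * d ^ 2) - 3 * (c * d * (-c - d)))
              * (100 * (a * b * (-a - b)) - 3 * (2 * a ^ 2 + 2 * a * b + 2 * b ^ 2) ^ 2)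
            + (2 * (2 * a ^ 2 + 2 * a * b + 2 * b ^ 2) - 3 * (a * b * (-a - b)))
              * (100 * (c * d * (-c - d)) - 3 * (2 * c ^ 2 + 2 * c * d + 2 * d ^ 2) ^ 2))
        - (27518828544 : ℝ) * ((2 * a ^ 2 + 2 * a * b + 2 * b ^ 2) * (2 * c ^ 2 + 2 * c * d + 2 * d ^ 2))
        - (9 : ℝ) * evT termsFM (2 * a ^ 2 + 2 * a * b + 2 * b ^ 2) (a * b * (-a - b))
            (2 * c ^ 2 + 2 * c * d + 2 * d ^ 2) (c * d * (-c - d)) := by
  open Vale.Agent.P154q4.D5.P6 IdP in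
  have h := ev_of_beqP _ _ checkM a b 0 c d 0
  unfold LM6 RPM at h
  rw [ev_smul, ev_mergeAll, ev_mergeAll] at h
  simp only [evs, List.map_cons, List.map_nil, List.sum_cons, List.sum_nil, add_zero, ev_smul, ev_add, ev_mul,
    P0M_spec, ev_evTP, ev_v4, ev_v5, ev_Pe, ev_Pp3, ev_Pt, ev_Pq3, ev_Pr, ev_PLz, ev_PLm, ev_sb] at h
  push_cast at h
  linarith only [h]

end

end Vale.Agent.P154q3.C
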